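import Vale.Agent.P113.Asm

/-!
# P113: halting detection by particle trajectories of forced Navier-Stokes flows from rest

The question is answered affirmatively: one force compiler `F`, one rational point `a` and one
open box with rational corners `lo`, `hi` work for all viscosities `ν > 0`, all machines `M` and
all inputs `w`.
-/

open Set
open Vale.Agent.P113

namespace Vale.Agent.Results.P113.Full

/-- **Full affirmative answer to P113.** -/
theorem result :
    ∃ (a lo hi : Fin 3 → ℚ) (F : Fin 3 → Machine × List ℕ → List Term) (T₀ : ℝ),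
      (∀ i, lo i < hi i) ∧ IsForceCompiler F T₀ ∧
      ∀ ν : ℝ, 0 < ν → ∀ (M : Machine) (w : List ℕ),
        ∃ (u : ℝ → (Fin 3 → ℝ) → (Fin 3 → ℝ)) (p : ℝ → (Fin 3 → ℝ) → ℝ) (X : ℝ → (Fin 3 → ℝ)),
          IsSmooth u p ∧
          IsClassicalSolution ν (force ν F M w) (Ici 0) u p ∧
          (∀ T, 0 < T → ∀ v q, IsClassicalSolution ν (force ν F M w) (Icc 0 T) v q →
            ∀ t ∈ Icc 0 T, ∀ x, v t x = u t x ∧ q t x = p t x) ∧
          IsTrajectory u (fun i => (a i : ℝ)) X ∧
          (∀ Y, IsTrajectory u (fun i => (a i : ℝ)) Y → ∀ t, 0 ≤ t → Y t = X t) ∧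
          ((∃ t, 0 ≤ t ∧ toTorus (X t) ∈ boxImage lo hi) ↔ M.HaltsOn w) :=
  statement_proved

end Vale.Agent.Results.P113.Full
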